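import Vale.Agent.P286EJB.Rp
import Vale.Agent.P286EP.Prod
import Vale.Agent.P286.H621.Sig

/-!
# `D`-modules on the classifying stack of the group of order four
-/

set_option linter.all false

namespace Vale.Agent.P286EJB

open CategoryTheory Vale.Agent.P286 Vale.Agent.P286.St Vale.Agent.P286.H847 Vale.Agent.P286.H652
  Vale.Agent.P286.H353 Vale.Agent.P286.H64 Vale.Agent.P286.H274 Vale.Agent.P286.H621
  Vale.Agent.P286E Vale.Agent.P286EG Vale.Agent.P286EJ Vale.Agent.P286EH TensorProduct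

noncomputable section

universe u v u₁ v₁ u₂ v₂

variable {s : ℂ}

/-- A complex of vector spaces. -/
def lm0 (N : GD) : LM 0 where
  toGD := N
  e i := i.elim0
  e_e i := i.elim0
  e_d i := i.elim0
  e_gr i := i.elim0

/-- The value of a cochain at the point. -/
def evL {F F' : GTD (BK K4 s)} (n : ℤ) :
    GTD.Coch F F' n →ₗ[ℂ] (F.F (pt s)).V →ₗ[ℂ] (F'.F (pt s)).V where
  toFun z := z.f (pt s)
  map_add' _ _ := rfl
  map_smul' _ _ := rfl

theorem ev_e {F F' : GTD (BK K4 s)} {n : ℤ} (z : GTD.Coch F F' n) (i : J) (x : (F.F (pt s)).V) :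
    z.f (pt s) ((rp F).eL i x) = (rp F').eL i (z.f (pt s) x) :=
  (rp F).eL_nat (rp F') (z.f (pt s)) (fun k => z.tr (rk s k)) i x

/-- The eigenspace of a character. -/
def XD (s : ℂ) (i : J) : DGF (gtc (BK K4 s)) (LMod 0) :=
  LMod.dgf (C := gtc (BK K4 s)) (fun F => lm0 (cut ((rp F).e i))) (fun n => evL n)
    (fun n z m x h => ⟨GTD.Coch.deg z (pt s) m x h.1,
      (ev_e z i x).symm.trans (congrArg (GTD.Coch.f z (pt s)) h.2)⟩)
    (fun _ _ j => j.elim0) (fun _ _ => rfl) (fun _ _ _ _ => rfl)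
    (fun n z x => gdl_f rfl z (pt s) x) fun _ _ z h => gdl_ne h z

theorem XD_pres (i : J) : Pres (gqis (BK K4 s)) (LMod.W 0) (XD s i).z0 := fun F F' a h =>
  cut_qis (e := (rp (gt F)).e i) (e' := (rp (gt F')).e i) ((rp (gt F)).eL_idem i)
    ((rp (gt F')).eL_idem i) (u := gh a (pt s)) (fun x => (ev_e (gz a) i x).symm) (h (pt s)) _
    fun _ => rfl

/-- Four complexes. -/
abbrev V4 : DGC.{1, 0} := P286EP.pi fun _ : J => LMod 0

/-- The quasi-isomorphisms. -/
abbrev W4 : MorphismProperty (Z0 V4) := P286EP.piW fun _ : J => LMod.W 0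

/-- The eigenspaces. -/
def XX (s : ℂ) : DGF (gtc (BK K4 s)) V4 := P286EP.piLift fun i => XD s i

theorem XX_pres : Pres (gqis (BK K4 s)) W4 (XX s).z0 := fun _ _ a h i => XD_pres i a h

/-- The underlying complexes. -/
def gd (N : V4.Obj) (i : J) : GD := LM.toGD (N i)

/-- The product of cochains. -/
def piL {N N' : V4.Obj} (n : ℤ) :
    V4.Hom N N' n →ₗ[ℂ] (gpi (gd N)).V →ₗ[ℂ] (gpi (gd N')).V where
  toFun z := LinearMap.pi fun i => (LM.Coch.f (z i)).comp (LinearMap.proj i)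
  map_add' _ _ := rfl
  map_smul' _ _ := rfl

theorem piL_r {N N' : V4.Obj} {n : ℤ} (z : V4.Hom N N' n) (k : K4) (x : (gpi (gd N)).V) :
    piL n z (((rpi (gd N)).r k).f x) = ((rpi (gd N')).r k).f (piL n z x) :=
  funext fun i => ((congrArg (LM.Coch.f (z i)) (rpi_r _ k x i)).trans (map_zsmul _ _ _)).trans
    (rpi_r _ k (piL n z x) i).symm

/-- The cochain of families. -/
def YC {N N' : V4.Obj} {n : ℤ} (z : V4.Hom N N' n) :
    GTD.Coch (fam s (rpi (gd N))) (fam s (rpi (gd N'))) n where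
  f X := TensorProduct.map (LinearMap.id : (BK K4 s).R X →ₗ[ℂ] _) (piL n z)
  deg X m _ h := ten_mem (P := (gpi (gd N)).gr m) (Q := (gpi (gd N')).gr (m + n)) _ _
    (fun x hx i _ => LM.Coch.deg (z i) m (x i) (hx i trivial)) h
  fn X a := map_sq (fun _ => rfl) fun _ => rfl
  vf X v := map_sq (fun _ => rfl) fun _ => rfl
  tr φ := map_sq (fun _ => rfl) (piL_r z (BM.k φ))

theorem map_dl {A : Type} [CommRing A] [Algebra ℂ A] {M N : GD} (c : ℤ) (u w : M.V →ₗ[ℂ] N.V)
    (h : ∀ y, w y = N.d (u y) - c • u (M.d y)) (z : A ⊗[ℂ] M.V) :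
    TensorProduct.map LinearMap.id w z = (ten A N).d (TensorProduct.map LinearMap.id u z) -
      c • TensorProduct.map LinearMap.id u ((ten A M).d z) := by
  induction z using TensorProduct.induction_on with
  | zero => simp
  | tmul a x => simp only [map_tmul, h, tmul_sub, tmul_smul, LinearMap.id_apply]
  | add x y hx hy =>
    simp only [map_add, hx, hy, smul_add]
    abel

/-- The cochain of families. -/
def YL (s : ℂ) {N N' : V4.Obj} (n : ℤ) :
    V4.Hom N N' n →ₗ[ℂ] GTD.Coch (fam s (rpi (gd N))) (fam s (rpi (gd N'))) n where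
  toFun := YC
  map_add' z w := GTD.Coch.ext' fun X => LinearMap.congr_fun
    (TensorProduct.map_add_right LinearMap.id (piL n z) (piL n w))
  map_smul' c z := GTD.Coch.ext' fun X => LinearMap.congr_fun
    (TensorProduct.map_smul_right c LinearMap.id (piL n z))

/-- The family defined by four complexes. -/
def YY (s : ℂ) : DGF V4 (gtc (BK K4 s)) where
  obj N := fam s (rpi (gd N))
  map n := YL s n
  map_one N := GTD.Coch.ext' fun X => map_one' (fun _ => rfl) fun _ => rfl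
  map_comp {N N' N'' m n p} h z w := GTD.Coch.ext' fun X =>
    map_cp (k := LinearMap.id) (g := LinearMap.id) (g' := LinearMap.id) (u := piL m z)
      (u' := piL n w) (w := piL p (V4.comp h z w)) (fun _ => rfl) fun _ => rfl
  map_d {N N'} m n z := by
    by_cases h : m + 1 = n
    · exact GTD.Coch.ext' fun X x => (map_dl (M := gpi (gd N)) (N := gpi (gd N')) _ (piL m z)
        (piL n (V4.d m n z)) (fun y => funext fun i => Co.dif_f h (z i) (y i)) x).trans
        (gdl_f h (YC z) X x).symm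
    · have e : V4.d m n z = 0 := funext fun i => Co.dif_ne h (z i)
      exact ((congrArg (YL s n) e).trans (map_zero _)).trans (gdl_ne h (YC z)).symm

theorem YY_pres : Pres W4 (gqis (BK K4 s)) (YY s).z0 := fun N N' a h X =>
  ten_qis (A := (BK K4 s).R X) (N := gpi (gd (ob N))) (N' := gpi (gd (ob N')))
    (u := piMap fun i => (LMod.toH ((P286EP.ev _ i).z0.map a)).toHom) (pi_qis h _ fun _ _ => rfl)

theorem un {E : Type 1} [Category.{1} E] (H : E ⥤ Z0 (gtc (BK K4 s)))
    (h : ∀ K, GC (gt (H.obj K))) :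
    NatW (gqis (BK K4 s)) ((H ⋙ (XX s).z0) ⋙ (YY s).z0) H :=
  natW_g (fun K => unG (gt (H.obj K)) (sH (rp (gt (H.obj K)))) _ (sH_r (rp (gt (H.obj K)))))
    (fun {K L} a X => ten_ext
      (u := (unL (gt (H.obj L)) (sH (rp (gt (H.obj L)))) X).comp
        (TensorProduct.map LinearMap.id (piL 0 (zf ((XX s).z0.map (H.map a))))))
      (v := ((gz (H.map a)).f X).comp (unL (gt (H.obj K)) (sH (rp (gt (H.obj K)))) X))
      fun b x => (((gz (H.map a)).fn X b _).trans (congrArg ((gt (H.obj L)).fn X b)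
        (((gz (H.map a)).tr (io s X) _).trans (congrArg ((gt (H.obj L)).tr (io s X)).f
          ((congrArg _ (sH_f _ x)).trans ((map_sum _ _ _).trans
            ((Finset.sum_congr rfl fun i _ => ev_e (gz (H.map a)) i (x i)).trans
              (sH_f _ _).symm))))))).symm)
    fun K => unG_qis _ _ _ _ (h K) (sH_qis _)

theorem one_e {M : GD} (ρ : Rp M) (i : J) (x : M.V) :
    (one ℂ M).f (ρ.eL i x) = (rp (fam s ρ)).eL i ((one ℂ M).f x) :=
  ρ.eL_nat (rp (fam s ρ)) (one ℂ M).f (fun _ _ => rfl) i x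

/-- The map `x ↦ 1 ⊗ x` on the eigenspaces. -/
def oneC (s : ℂ) {M : GD} (ρ : Rp M) (i : J) :
    GD.Hom (cut (ρ.e i)) (cut ((rp (fam s ρ)).e i)) :=
  ⟨(one ℂ M).f, (one ℂ M).comm, fun m x h => ⟨(one ℂ M).deg m x h.1,
    (one_e ρ i x).symm.trans (congrArg (one ℂ M).f h.2)⟩⟩

theorem oneC_qis {M : GD} (ρ : Rp M) (i : J) : GD.Qis (oneC s ρ i) :=
  cut_qis (ρ.eL_idem i) ((rp (fam s ρ)).eL_idem i) (u := one ℂ M)
    (fun x => (one_e ρ i x).symm) (one_qis M) _ fun _ => rfl

theorem co (i : J) :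
    NatW (LMod.W 0) (P286EP.ev (fun _ : J => LMod 0) i).z0 ((YY s).comp (XD s i)).z0 :=
  LMod.natW (fun N => ⟨(oneC s (rpi (gd N)) i).comp (sgl (gd N) i), fun j => j.elim0⟩)
    (fun {N N'} a _ x => congrArg (one ℂ (gpi (gd N'))).f (funext fun j =>
      (Pi.apply_single (M := fun j => (gd N j).V) (N := fun j => (gd N' j).V)
        (fun j => LM.Coch.f (a j)) (fun j => map_zero _) i x j).symm))
    fun N => (oneC_qis _ i).comp (sgl_qis _ i)

theorem xqis_inc {T : TSite} {K L : Z0 (dgc T)} (a : K ⟶ L) (h : zqis T a) :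
    xqis T ((inc T).z0.map a) := h

theorem gc_ofD {T : TSite} (K : Z0 (dgc T)) : GC (gt (((inc T).comp (ofD T)).z0.obj K)) :=
  cart_ofD K

theorem gqis_id {T : TSite} (F : Z0 (gtc T)) : gqis T (𝟙 F) := fun _ => GD.Qis.id _

theorem cart_c {T : TSite} {D : DGC.{u, v}} (Y : DGF D (gtc T)) (N : D.Obj) (h : GC (Y.obj N)) :
    Cx.Cart (T := T) ((Y.comp (toD T)).obj N) := h

section

variable {B : DGC.{u, v}} {C : DGC.{u₁, v₁}} {D : DGC.{u₂, v₂}} {W : MorphismProperty (Z0 C)}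
  {W' : MorphismProperty (Z0 D)}

theorem natZ_id (h : ∀ X, W (𝟙 X)) (F : Z0 B ⥤ Z0 C) : NatZ W F F := Or.inl ⟨𝟙 _, fun _ => h _⟩

theorem natZ_c (A : DGF B C) (X : DGF C D) (G : Z0 D ⥤ Z0 C)
    (h : NatZ W ((A.z0 ⋙ X.z0) ⋙ G) A.z0) : NatZ W ((A.comp X).z0 ⋙ G) A.z0 := h

theorem zig_c (Y : DGF D C) (A : DGF C B) (O : DGF B C) (X : DGF C D)
    (h : NatW W (A.comp O).z0 (𝟭 _)) (pX : Pres W W' X.z0) :
    Zig W' (((Y.comp A).comp O).comp X).z0 (Y.comp X).z0 := ((h.left Y.z0).right X.z0 pX).zig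

end

/-- A criterion in terms of families. -/
theorem eqv_of {T : TSite} (P : WD.{u, v}) (X : DGF (gtc T) P.C) (Y : DGF P.C (gtc T))
    (gc : ∀ N, GC (Y.obj N)) (pX : Pres (gqis T) P.W X.z0) (pY : Pres P.W (gqis T) Y.z0)
    (un : ∀ (H : Z0 (dgc T) ⥤ Z0 (gtc T)), (∀ K, GC (gt (H.obj K))) →
      NatZ (gqis T) ((H ⋙ X.z0) ⋙ Y.z0) H) (co : Zig P.W (𝟭 _) (Y.comp X).z0) :
    EQV (WD.st T) P :=
  let p : GParts T P.C P.W :=
    { O := ofD T
      X := X
      Y := Y
      M := ((inc T).comp (ofD T)).z0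
      N := (Y.comp X).z0
      cartO := cart_ofD
      cart := fun N => cart_c Y N (gc N)
      cartM := cart_ofD
      presX := fun _ _ a h => by
        rw [comp_map, comp_map]
        exact pX _ (gqis_ofD _ (xqis_inc a h))
      presY := pY
      zO := zO_ofD T
      zM := natZ_c _ X _ (un _ gc_ofD)
      zM' := natZ_id gqis_id _
      zN := zig_c Y _ _ X (natW_sig T) pX
      zN' := co }
  ⟨p.Xi, p.Th, p.inv⟩

/-- Four complexes. -/
def wd4 : WD.{1, 0} := ⟨V4, W4, P286EP.ids_pi fun _ => LMod.W_id⟩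

/-- The four projections. -/
def pr4 : J → DGF WD.v4.C (LMod 0)
  | (true, true) => (dfst _ _).comp (dfst _ _)
  | (true, false) => (dfst _ _).comp (dsnd _ _)
  | (false, true) => (dsnd _ _).comp (dfst _ _)
  | (false, false) => (dsnd _ _).comp (dsnd _ _)

/-- The functor with the four components. -/
def to4 : DGF V4 WD.v4.C :=
  dpair (dpair (P286EP.ev _ (true, true)) (P286EP.ev _ (true, false)))
    (dpair (P286EP.ev _ (false, true)) (P286EP.ev _ (false, false)))

theorem eqv4 : EQV wd4 WD.v4 := by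
  refine P286EP.Eq2.of_eq to4 (P286EP.piLift pr4)
    (fun _ _ a h => ⟨⟨h (true, true), h (true, false)⟩, h (false, true), h (false, false)⟩)
    (fun _ _ a h i => ?_) ?_ rfl
  · rcases i with ⟨_ | _, _ | _⟩
    exacts [h.2.2, h.2.1, h.1.2, h.1.1]
  · refine congrArg (fun σ : J → DGF V4 (LMod 0) => (P286EP.piLift σ).z0)
      (funext fun i => ?_ : (fun i => to4.comp (pr4 i)) = fun i => P286EP.ev _ i)
    rcases i with ⟨_ | _, _ | _⟩ <;> rfl

/-- **`D`-modules on the classifying stack of the group of order four.** -/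
theorem bkv : BKV := fun s =>
  (eqv_of wd4 (XX s) (YY s) (fun N => gc_fam (rpi (gd N))) XX_pres YY_pres
    (fun H h => Or.inl (un H h)) (P286EP.natW_pi fun i => co i).zig).trans eqv4

end

end Vale.Agent.P286EJB
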