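import Vale.Agent.P286EJB.Ten
import Vale.Agent.P286EJ.Defs
import Vale.Agent.P286EH.Push

/-!
# Representations of the group of order four and families on its classifying stack
-/

set_option linter.all false

namespace Vale.Agent.P286EJB

open CategoryTheory Vale.Agent.P286 Vale.Agent.P286.St Vale.Agent.P286.H847 Vale.Agent.P286.H652
  Vale.Agent.P286EG Vale.Agent.P286EJ Vale.Agent.P286EH TensorProduct

noncomputable section

/-- The characters. -/
abbrev J : Type := Bool × Bool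

/-- The value of a character. -/
def ch (i : J) (k : K4) : ℤ := (bif i.1 then (k.1 : ℤ) else 1) * (bif i.2 then (k.2 : ℤ) else 1)

theorem ch_mul : ∀ i k l, ch i (k * l) = ch i k * ch i l := by decide

theorem ch_one : ∀ i, ch i 1 = 1 := by decide

theorem ch_kl : ∀ i k l, ch i k * ch i (k * l) = ch i l := by decide

theorem ch_orth : ∀ i j, ∑ k, ch i k * ch j k = if i = j then 4 else 0 := by decide

theorem ch_sum : ∀ k, ∑ i, ch i k = if k = 1 then 4 else 0 := by decide

/-- A representation. -/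
structure Rp (M : GD) where
  r : K4 → GD.Hom M M
  one : ∀ x, (r 1).f x = x
  mul : ∀ k l x, (r (k * l)).f x = (r k).f ((r l).f x)

namespace Rp

variable {M N : GD} (ρ : Rp M) (ρ' : Rp N)

theorem qis (k : K4) : GD.Qis (ρ.r k) :=
  qis_inv _ (ρ.r k⁻¹) (fun _ x _ => by rw [← ρ.mul, inv_mul_cancel, ρ.one])
    fun _ x _ => by rw [← ρ.mul, mul_inv_cancel, ρ.one]

/-- The idempotent of a character. -/
def eL (i : J) : M.V →ₗ[ℂ] M.V := (4⁻¹ : ℂ) • ∑ k, ch i k • (ρ.r k).f

theorem eL_apply (i : J) (x : M.V) : ρ.eL i x = (4⁻¹ : ℂ) • ∑ k, ch i k • (ρ.r k).f x := by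
  simp only [eL, LinearMap.smul_apply, LinearMap.sum_apply]

theorem eL_nat (u : M.V →ₗ[ℂ] N.V) (h : ∀ k x, u ((ρ.r k).f x) = (ρ'.r k).f (u x)) (i : J)
    (x : M.V) : u (ρ.eL i x) = ρ'.eL i (u x) := by
  simp only [eL_apply, map_smul, map_sum, map_zsmul, h]

/-- The idempotent of a character. -/
def e (i : J) : GD.Hom M M :=
  ⟨ρ.eL i, fun x => (ρ.eL_nat ρ M.d (fun k x => ((ρ.r k).comm x).symm) i x).symm,
    fun m x h => by
      rw [eL_apply]
      exact Submodule.smul_mem _ _ (sum_mem fun k _ => zsmul_mem ((ρ.r k).deg m x h) _)⟩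

theorem r_eL (i : J) (k : K4) (x : M.V) : (ρ.r k).f (ρ.eL i x) = ch i k • ρ.eL i x := by
  rw [eL_apply, map_smul, map_sum, smul_comm (ch i k), Finset.smul_sum (r := ch i k),
    ← Equiv.sum_comp (Equiv.mulLeft k) fun l => ch i k • ch i l • (ρ.r l).f x]
  refine congrArg _ (Finset.sum_congr rfl fun l _ => ?_)
  rw [Equiv.coe_mulLeft, map_zsmul, smul_smul, ch_kl, ρ.mul]

theorem eL_eig {j : J} {x : M.V} (h : ∀ k, (ρ.r k).f x = ch j k • x) (i : J) :
    ρ.eL i x = if i = j then x else 0 := by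
  simp only [eL_apply, h, smul_smul, ← Finset.sum_smul, ch_orth]
  split_ifs
  · rw [← Int.cast_smul_eq_zsmul ℂ, smul_smul]
    norm_num
  · rw [zero_smul, smul_zero]

theorem eL_eL (i j : J) (x : M.V) : ρ.eL i (ρ.eL j x) = if i = j then ρ.eL j x else 0 :=
  ρ.eL_eig (fun k => ρ.r_eL j k x) i

theorem eL_idem (i : J) (x : M.V) : ρ.eL i (ρ.eL i x) = ρ.eL i x :=
  (ρ.eL_eL i i x).trans (if_pos rfl)

theorem sum_eL (x : M.V) : ∑ i, ρ.eL i x = x := by
  simp only [eL_apply, ← Finset.smul_sum]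
  rw [Finset.sum_comm]
  simp only [← Finset.sum_smul, ch_sum, ite_smul, zero_smul, Finset.sum_ite_eq', Finset.mem_univ,
    if_true, ρ.one]
  rw [← Int.cast_smul_eq_zsmul ℂ, smul_smul]
  norm_num

end Rp

/-- Multiplication by an integer. -/
def zH (M : GD) (c : ℤ) : GD.Hom M M :=
  ⟨c • LinearMap.id, fun x => by simp, fun _ _ h => by simpa using zsmul_mem h _⟩

theorem zH_f (M : GD) (c : ℤ) (x : M.V) : (zH M c).f x = c • x := by simp [zH]

/-- The representation on a product. -/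
def rpi (N : J → GD) : Rp (gpi N) where
  r k := piMap fun i => zH (N i) (ch i k)
  one x := funext fun i => (zH_f _ _ (x i)).trans (by rw [ch_one, one_zsmul])
  mul k l x := funext fun i => (zH_f _ _ (x i)).trans (by
    rw [ch_mul, mul_zsmul, ← zH_f, ← zH_f]
    rfl)

theorem rpi_r (N : J → GD) (k : K4) (x : ∀ i, (N i).V) (i : J) :
    ((rpi N).r k).f x i = ch i k • x i := zH_f _ _ _

theorem rpi_single (N : J → GD) (i j : J) (x : (N j).V) :
    (rpi N).eL i (Pi.single j x) = if i = j then Pi.single j x else 0 :=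
  (rpi N).eL_eig (fun k => funext fun l => by
    rw [rpi_r, Pi.smul_apply]
    by_cases h : l = j
    · rw [h]
    · rw [Pi.single_eq_of_ne h, smul_zero, smul_zero]) i

theorem rpi_eL (N : J → GD) (i : J) (x : ∀ i, (N i).V) : (rpi N).eL i x = Pi.single i (x i) := by
  conv_lhs => rw [← Finset.univ_sum_single x]
  rw [map_sum, Finset.sum_congr rfl fun j _ => rpi_single N i j (x j), Finset.sum_ite_eq,
    if_pos (Finset.mem_univ _)]

/-- The inclusion of a factor. -/
def sgl (N : J → GD) (i : J) : GD.Hom (N i) (cut ((rpi N).e i)) :=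
  ⟨LinearMap.single ℂ (fun i => (N i).V) i, fun x => funext fun j =>
      (Pi.apply_single (fun j => (N j).d) (fun j => map_zero _) i x j).symm,
    fun m x h => ⟨fun j _ => by
      by_cases e : j = i
      · subst e
        simpa using h
      · simp [Pi.single_eq_of_ne e], (rpi_single N i i x).trans (if_pos rfl)⟩⟩

theorem sgl_qis (N : J → GD) (i : J) : GD.Qis (sgl N i) :=
  qis_inv _ ⟨LinearMap.proj i, fun _ => rfl, fun _ _ h => h.1 i trivial⟩
    (fun _ x _ => Pi.single_eq_same (M := fun i => (N i).V) i x)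
    fun _ x h => (rpi_eL N i x).symm.trans h.2

/-- The sum of the eigenspaces. -/
def sH {M : GD} (ρ : Rp M) : GD.Hom (gpi fun i => cut (ρ.e i)) M :=
  ⟨∑ i, (ρ.eL i).comp (LinearMap.proj i), fun x => by
      simp only [LinearMap.sum_apply, map_sum]
      exact Finset.sum_congr rfl fun i _ => (ρ.e i).comm (x i),
    fun m x h => by
      rw [LinearMap.sum_apply]
      exact sum_mem fun i _ => (ρ.e i).deg m _ (h i trivial).1⟩

theorem sH_f {M : GD} (ρ : Rp M) (x : J → M.V) : (sH ρ).f x = ∑ i, ρ.eL i (x i) :=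
  LinearMap.sum_apply _ _ _

theorem sH_r {M : GD} (ρ : Rp M) (k : K4) (x : J → M.V) :
    (sH ρ).f (((rpi fun i => cut (ρ.e i)).r k).f x) = (ρ.r k).f ((sH ρ).f x) := by
  rw [sH_f, sH_f, map_sum]
  exact Finset.sum_congr rfl fun i _ => (congrArg (ρ.eL i) (rpi_r _ k x i)).trans
    ((map_zsmul (ρ.eL i) _ (x i)).trans (ρ.r_eL i k _).symm)

theorem sH_qis {M : GD} (ρ : Rp M) : GD.Qis (sH ρ) :=
  qis_inv _ ⟨LinearMap.pi fun i => ρ.eL i, fun x => funext fun i => (ρ.e i).comm x,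
      fun m x h i _ => ⟨(ρ.e i).deg m x h, ρ.eL_idem i x⟩⟩
    (fun _ x h => funext fun i => by
      refine (congrArg (ρ.eL i) (sH_f ρ x)).trans ?_
      rw [map_sum, Finset.sum_congr rfl fun j _ => ρ.eL_eL i j (x j), Finset.sum_ite_eq,
        if_pos (Finset.mem_univ _)]
      exact (h i trivial).2)
    fun _ x _ => (sH_f ρ _).trans
      ((Finset.sum_congr rfl fun i _ => ρ.eL_idem i x).trans (ρ.sum_eL x))

section

variable {A B D V W Z : Type} [CommRing A] [Algebra ℂ A] [CommRing B] [Algebra ℂ B] [CommRing D]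
  [Algebra ℂ D] [AddCommGroup V] [Module ℂ V] [AddCommGroup W] [Module ℂ W] [AddCommGroup Z]
  [Module ℂ Z]

theorem ten_ext {u v : A ⊗[ℂ] V →ₗ[ℂ] W} (h : ∀ a x, u (a ⊗ₜ[ℂ] x) = v (a ⊗ₜ[ℂ] x))
    (z : A ⊗[ℂ] V) : u z = v z := by rw [TensorProduct.ext' h]

theorem map_one' {g : A →ₗ[ℂ] A} {u : V →ₗ[ℂ] V} (h : ∀ a, g a = a) (h' : ∀ x, u x = x)
    (z : A ⊗[ℂ] V) : TensorProduct.map g u z = z :=
  ten_ext (v := LinearMap.id) (fun a x => by rw [map_tmul, h, h']; rfl) z

theorem map_cp {g : A →ₗ[ℂ] B} {g' : B →ₗ[ℂ] D} {k : A →ₗ[ℂ] D} {u : V →ₗ[ℂ] W} {u' : W →ₗ[ℂ] Z}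
    {w : V →ₗ[ℂ] Z} (h : ∀ a, k a = g' (g a)) (h' : ∀ x, w x = u' (u x)) (z : A ⊗[ℂ] V) :
    TensorProduct.map k w z = TensorProduct.map g' u' (TensorProduct.map g u z) :=
  ten_ext (v := (TensorProduct.map g' u').comp (TensorProduct.map g u))
    (fun a x => by rw [map_tmul, h, h']; rfl) z

theorem dmod_ten (A V : Type) [CommRing A] [Algebra ℂ A] [AddCommGroup V] [Module ℂ V] :
    IsDMod (R := A) (M := A ⊗[ℂ] V) (fun a => tfn A V a)
      fun v => TensorProduct.map (Derivation.toLinearMap v) LinearMap.id where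
  const c := ten_ext (u := tfn A V (algebraMap ℂ A c)) (v := c • LinearMap.id) fun a x => by
    rw [tfn_tmul, ← Algebra.smul_def]
    rfl
  fn_add a b m := by rw [map_add, LinearMap.add_apply]
  fn_mul a b m := by rw [map_mul, Module.End.mul_apply]
  vf_add v w := ten_ext (v := TensorProduct.map v.toLinearMap LinearMap.id +
    TensorProduct.map w.toLinearMap LinearMap.id) fun a x => add_tmul (v a) (w a) x
  vf_smul a v := ten_ext (v := (tfn A V a).comp (TensorProduct.map v.toLinearMap LinearMap.id))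
    fun _ _ => rfl
  vf_fn v a := ten_ext (u := (TensorProduct.map v.toLinearMap LinearMap.id).comp (tfn A V a))
    (v := tfn A V (v a) + (tfn A V a).comp (TensorProduct.map v.toLinearMap LinearMap.id))
    fun b x => (congrArg (· ⊗ₜ[ℂ] x) ((v.leibniz a b).trans
      ((add_comm _ _).trans (congrArg (· + _) (mul_comm _ _))))).trans (add_tmul _ _ x)
  vf_lie v w := ten_ext (v := (TensorProduct.map v.toLinearMap LinearMap.id).comp
      (TensorProduct.map w.toLinearMap LinearMap.id) -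
    (TensorProduct.map w.toLinearMap LinearMap.id).comp
      (TensorProduct.map v.toLinearMap LinearMap.id)) fun a x => sub_tmul (v (w a)) (w (v a)) x

theorem trans_ten (s : ℂ) (f : A →ₐ[ℂ] B) (u : V →ₗ[ℂ] W) :
    IsTrans (M := A ⊗[ℂ] V) (N := B ⊗[ℂ] W) s f 1 (fun a => tfn A V a)
      (fun v => TensorProduct.map (Derivation.toLinearMap v) LinearMap.id) (fun a => tfn B W a)
      (fun v => TensorProduct.map (Derivation.toLinearMap v) LinearMap.id)
      (TensorProduct.map f.toLinearMap u) where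
  fn a := map_sq (fun b => map_mul f a b) fun _ => rfl
  vf w k c v h m := by
    rw [w.map_one_eq_zero, map_zero, LinearMap.zero_apply, smul_zero, sub_zero]
    congr 1
    induction m using TensorProduct.induction_on with
    | zero => simp
    | tmul a x => exact (congrArg (· ⊗ₜ[ℂ] u x) (h a)).trans (sum_tmul _ _ _)
    | add x y hx hy => simp only [map_add, hx, hy, Finset.sum_add_distrib]

theorem congr_hom {M N : GD} {u v : GD.Hom M N} (h : ∀ x, u.f x = v.f x) : u = v := by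
  cases u
  cases v
  congr
  exact LinearMap.ext h

end

variable {s : ℂ}

/-- The family defined by a representation. -/
def fam (s : ℂ) {M : GD} (ρ : Rp M) : GTD (BK K4 s) where
  F X := ten ((BK K4 s).R X) M
  fn X a := tfn ((BK K4 s).R X) M.V a
  vf X v := TensorProduct.map (Derivation.toLinearMap v) LinearMap.id
  tr φ := tenH ((BK K4 s).f φ).toLinearMap (ρ.r (BM.k φ))
  fn_gr X := (tag ((BK K4 s).R X) M).gr
  vf_gr X v _ _ h := ten_mem _ _ (fun _ h => h) h
  fn_d X := (tag ((BK K4 s).R X) M).d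
  vf_d X v := map_sq (fun _ => rfl) fun _ => rfl
  dmod X := dmod_ten ((BK K4 s).R X) M.V
  trans X Y φ := trans_ten s ((BK K4 s).f φ) (ρ.r (BM.k φ)).f
  id X := map_one' (fun _ => rfl) ρ.one
  comp X Y Z φ ψ := map_cp (fun _ => rfl) (ρ.mul (BM.k ψ) (BM.k φ))
  cen _ _ h := h.elim

theorem gc_fam {M : GD} (ρ : Rp M) : GC (fam s ρ) :=
  (gc_iff _).2 fun X Y φ => db_tenH ((BK K4 s).f φ) (ρ.qis (BM.k φ))

/-- The point. -/
def pt (s : ℂ) : (BK K4 s).C := ({ R := ℂ, smooth := ⟨inferInstance, inferInstance⟩ } : SmAlg)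

/-- The automorphisms of the point. -/
def rk (s : ℂ) (k : K4) : pt s ⟶ pt s := (⟨AlgHom.id ℂ ℂ, k⟩ : BM K4 (pt s) (pt s))

/-- The structure morphism. -/
def io (s : ℂ) (X : (BK K4 s).C) : pt s ⟶ X :=
  (⟨Algebra.ofId ℂ ((BK K4 s).R X), 1⟩ : BM K4 (pt s) X)

theorem io_comp {X Y : (BK K4 s).C} (φ : X ⟶ Y) : io s X ≫ φ = rk s (BM.k φ) ≫ io s Y :=
  BM.ext (AlgHom.ext (R := ℂ) (A := ℂ) (B := (BK K4 s).R Y) fun c => ((BK K4 s).f φ).commutes c)
    ((mul_one _).trans (one_mul _).symm)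

/-- The representation defined by a family. -/
def rp (F : GTD (BK K4 s)) : Rp (F.F (pt s)) :=
  ⟨fun k => F.tr (rk s k), F.id (pt s), fun k l => F.comp _ _ _ (rk s l) (rk s k)⟩

theorem vf_io (F : GTD (BK K4 s)) (X : (BK K4 s).C) (v : ((BK K4 s).A X).Der) (y : (F.F (pt s)).V) :
    F.vf X v ((F.tr (io s X)).f y) = 0 := by
  have h := (F.trans _ _ (io s X)).vf v 0 Fin.elim0 Fin.elim0
    (fun c => (v.map_algebraMap c).trans (Finset.sum_of_isEmpty _).symm) y
  have h1 : v ((BK K4 s).dl (io s X)) = 0 := v.map_one_eq_zero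
  simp only [h1, fn_zero, smul_zero, sub_zero, Finset.univ_eq_empty, Finset.sum_empty,
    map_zero] at h
  exact (fn_one F X _).symm.trans h

/-- The action of the functions. -/
def fnL {T : TSite} (F : GTD T) (X : T.C) : T.R X →ₗ[ℂ] (F.F X).V →ₗ[ℂ] (F.F X).V where
  toFun := F.fn X
  map_add' a b := LinearMap.ext (fn_add F X a b)
  map_smul' c a := LinearMap.ext (fn_smul F X c a)

section

variable {M : GD} (F : GTD (BK K4 s)) (σ : GD.Hom M (F.F (pt s)))

/-- The map `a ⊗ x ↦ a σ(x)`. -/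
def unL (X : (BK K4 s).C) : (BK K4 s).R X ⊗[ℂ] M.V →ₗ[ℂ] (F.F X).V :=
  TensorProduct.lift ((fnL F X).compl₂ ((F.tr (io s X)).comp σ).f)

theorem unL_tmul (X : (BK K4 s).C) (a : (BK K4 s).R X) (x : M.V) :
    unL F σ X (a ⊗ₜ[ℂ] x) = F.fn X a ((F.tr (io s X)).f (σ.f x)) := rfl

/-- The map `a ⊗ x ↦ a σ(x)`. -/
def unH (X : (BK K4 s).C) : GD.Hom (ten ((BK K4 s).R X) M) (F.F X) :=
  ⟨unL F σ X, ten_ext (u := (unL F σ X).comp (ten _ M).d) (v := (F.F X).d.comp (unL F σ X))
      fun a x => (congrArg (F.fn X a) (((F.tr (io s X)).comp σ).comm x)).trans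
        (F.fn_d X a _).symm,
    fun m _ h => ten_le _ (fun a x hx => F.fn_gr X a m _
      (((F.tr (io s X)).comp σ).deg m x hx)) h⟩

/-- The map `a ⊗ x ↦ a σ(x)`. -/
def unG (ρ : Rp M) (h : ∀ k x, σ.f ((ρ.r k).f x) = ((rp F).r k).f (σ.f x)) :
    GHom (fam s ρ) F where
  f := unH F σ
  fn X a := ten_ext (u := (unL F σ X).comp (tfn _ M.V a)) (v := (F.fn X a).comp (unL F σ X))
    fun b x => fn_mul F X a b _
  vf X v := ten_ext
    (u := (unL F σ X).comp (TensorProduct.map (Derivation.toLinearMap v) LinearMap.id))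
    (v := (F.vf X v).comp (unL F σ X)) fun b x =>
      ((vf_fn F X v b ((F.tr (io s X)).f (σ.f x))).trans (by
        rw [vf_io, map_zero, add_zero]
        rfl)).symm
  tr {X Y} φ := ten_ext (u := (unL F σ Y).comp ((fam s ρ).tr φ).f)
    (v := (F.tr φ).f.comp (unL F σ X)) fun b x =>
      ((tr_fn F φ b ((F.tr (io s X)).f (σ.f x))).trans
        (congrArg (F.fn Y ((BK K4 s).f φ b)) (by
          rw [← F.comp, io_comp, F.comp]
          exact congrArg (F.tr (io s Y)).f (h _ x).symm))).symm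

theorem unG_qis (ρ : Rp M) (h : ∀ k x, σ.f ((ρ.r k).f x) = ((rp F).r k).f (σ.f x)) (hF : GC F)
    (q : GD.Qis σ) (X : (BK K4 s).C) : GD.Qis ((unG F σ ρ h).f X) := by
  refine (gc_fam ρ).qis hF _ (unG F σ ρ h).fn (unG F σ ρ h).tr (io s X) ?_
  refine GD.Qis.of_comp_right (one_qis M) ?_
  have e : ((unG F σ ρ h).f (pt s)).comp (one ℂ M) = σ :=
    congr_hom fun x => (fn_one F (pt s) _).trans (F.id (pt s) _)
  exact (congrArg GD.Qis e).mpr q

end

end

end Vale.Agent.P286EJB
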