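import Vale.Agent.P286EG.Cart

/-!
# Extension of scalars from the ground field, and eigenspaces of idempotents
-/

set_option linter.all false

namespace Vale.Agent.P286EJB

open Vale.Agent.P286 Vale.Agent.P286.H847 Vale.Agent.P286EG TensorProduct

noncomputable section

variable {A B : Type} [CommRing A] [Algebra ℂ A] [CommRing B] [Algebra ℂ B]

theorem ten_mem {V W : Type} [AddCommGroup V] [Module ℂ V] [AddCommGroup W] [Module ℂ W]
    {P : Submodule ℂ V} {Q : Submodule ℂ W} (g : A →ₗ[ℂ] B) (u : V →ₗ[ℂ] W)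
    (h : ∀ x ∈ P, u x ∈ Q) {z : A ⊗[ℂ] V} (hz : z ∈ LinearMap.range (P.subtype.lTensor A)) :
    TensorProduct.map g u z ∈ LinearMap.range (Q.subtype.lTensor B) := by
  obtain ⟨w, rfl⟩ := hz
  refine ⟨TensorProduct.map g (u.restrict h) w, ?_⟩
  induction w using TensorProduct.induction_on with
  | zero => simp
  | tmul a x => rfl
  | add x y hx hy => simp only [map_add, hx, hy]

theorem map_sq {V W V' W' : Type} [AddCommGroup V] [Module ℂ V] [AddCommGroup W] [Module ℂ W]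
    [AddCommGroup V'] [Module ℂ V'] [AddCommGroup W'] [Module ℂ W'] {C D : Type} [CommRing C]
    [Algebra ℂ C] [CommRing D] [Algebra ℂ D] {g : A →ₗ[ℂ] B} {g' : B →ₗ[ℂ] D} {k : A →ₗ[ℂ] C}
    {k' : C →ₗ[ℂ] D} {u : V →ₗ[ℂ] W} {u' : W →ₗ[ℂ] W'} {v : V →ₗ[ℂ] V'} {v' : V' →ₗ[ℂ] W'}
    (h : ∀ a, g' (g a) = k' (k a)) (h' : ∀ x, u' (u x) = v' (v x)) (z : A ⊗[ℂ] V) :
    TensorProduct.map g' u' (TensorProduct.map g u z) =
      TensorProduct.map k' v' (TensorProduct.map k v z) := by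
  induction z using TensorProduct.induction_on with
  | zero => simp
  | tmul a x => simp only [map_tmul, h, h']
  | add x y hx hy => simp only [map_add, hx, hy]

/-- Extension of scalars. -/
abbrev ten (A : Type) [CommRing A] [Algebra ℂ A] (N : GD) : GD where
  V := A ⊗[ℂ] N.V
  d := TensorProduct.map LinearMap.id N.d
  dd z := by
    induction z using TensorProduct.induction_on with
    | zero => simp
    | tmul a x => simp only [map_tmul, N.dd, tmul_zero]
    | add x y hx hy => simp only [map_add, hx, hy, add_zero]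
  gr m := LinearMap.range ((N.gr m).subtype.lTensor A)
  dgr m _ h := ten_mem _ _ (N.dgr m) h

theorem tmul_mem {N : GD} {m : ℤ} (a : A) {x : N.V} (h : x ∈ N.gr m) :
    a ⊗ₜ[ℂ] x ∈ (ten A N).gr m := ⟨a ⊗ₜ[ℂ] ⟨x, h⟩, rfl⟩

theorem ten_le {N : GD} {m : ℤ} {W : Type} [AddCommGroup W] [Module ℂ W] {Q : Submodule ℂ W}
    (u : A ⊗[ℂ] N.V →ₗ[ℂ] W) (h : ∀ a, ∀ x ∈ N.gr m, u (a ⊗ₜ[ℂ] x) ∈ Q) {z : A ⊗[ℂ] N.V}
    (hz : z ∈ (ten A N).gr m) : u z ∈ Q := by
  obtain ⟨w, rfl⟩ := hz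
  induction w using TensorProduct.induction_on with
  | zero => simp
  | tmul a x => exact h a x.1 x.2
  | add x y hx hy =>
    rw [map_add, map_add]
    exact add_mem hx hy

/-- Extension of scalars of a map. -/
def tenH (g : A →ₗ[ℂ] B) {N N' : GD} (u : GD.Hom N N') : GD.Hom (ten A N) (ten B N') :=
  ⟨TensorProduct.map g u.f, map_sq (fun _ => rfl) u.comm, fun m _ h => ten_mem _ _ (u.deg m) h⟩

/-- The action of the functions. -/
def tfn (A : Type) [CommRing A] [Algebra ℂ A] (V : Type) [AddCommGroup V] [Module ℂ V] :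
    A →+* Module.End ℂ (A ⊗[ℂ] V) where
  toFun a := TensorProduct.map (LinearMap.mulLeft ℂ a) LinearMap.id
  map_one' := TensorProduct.ext' fun a x => by simp
  map_mul' a b := TensorProduct.ext' fun c x => by simp [mul_assoc]
  map_zero' := TensorProduct.ext' fun a x => by simp
  map_add' a b := TensorProduct.ext' fun c x => by simp [add_mul, add_tmul]

theorem tfn_tmul {V : Type} [AddCommGroup V] [Module ℂ V] (a b : A) (x : V) :
    tfn A V a (b ⊗ₜ[ℂ] x) = (a * b) ⊗ₜ[ℂ] x := rfl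

/-- Extension of scalars. -/
abbrev tag (A : Type) [CommRing A] [Algebra ℂ A] (N : GD) : AG A where
  G := ten A N
  fn := tfn A N.V
  gr _ _ _ h := ten_mem _ _ (fun _ h => h) h
  d _ := map_sq (fun _ => rfl) fun _ => rfl

/-- The action of the scalars. -/
abbrev cag (N : GD) : AG ℂ where
  G := N
  fn := algebraMap ℂ (Module.End ℂ N.V)
  gr c _ _ h := Submodule.smul_mem _ c h
  d c x := map_smul N.d c x

/-- The map `x ↦ 1 ⊗ x`. -/
def one (A : Type) [CommRing A] [Algebra ℂ A] (N : GD) : GD.Hom N (ten A N) :=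
  ⟨TensorProduct.mk ℂ A N.V 1, fun _ => rfl, fun _ _ h => tmul_mem 1 h⟩

theorem sl_one (N : GD) : Sl (algebraMap ℂ A) (cag N) (tag A N) (one A N) := fun c x => by
  change (1 : A) ⊗ₜ[ℂ] (c • x) = (algebraMap ℂ A c * 1) ⊗ₜ[ℂ] x
  rw [← Algebra.smul_def, smul_tmul]

theorem db_ten (N : GD) : DB (algebraMap ℂ A) (cag N) (tag A N) (one A N) := by
  refine (db_flat (RingHom.flat_algebraMap_iff.2 inferInstance) (sl_one N)).2
    (AH.Qis.of_bij _ fun i => ?_)
  let ψ : A ⊗[ℂ] N.gr i →+ (bcx (algebraMap ℂ A) (cag N).mc).X i :=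
    TensorProduct.liftAddHom
      (AddMonoidHom.mk' (fun b => AddMonoidHom.mk'
        (fun x => ExtS.el (algebraMap ℂ A) b ((cag N).el x.1 x.2)) fun x y =>
          letI : Module ℂ A := Module.compHom A (algebraMap ℂ A)
          tmul_add b ((cag N).el x.1 x.2) ((cag N).el y.1 y.2)) fun b b' =>
          AddMonoidHom.ext fun x =>
          letI : Module ℂ A := Module.compHom A (algebraMap ℂ A)
          add_tmul b b' ((cag N).el x.1 x.2))
      fun c b x => by
        change ExtS.el (algebraMap ℂ A) (c • b) ((cag N).el x.1 x.2) =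
          ExtS.el (algebraMap ℂ A) b (c • (cag N).el x.1 x.2)
        rw [Algebra.smul_def]
        letI : Module ℂ A := Module.compHom A (algebraMap ℂ A)
        exact smul_tmul c b ((cag N).el x.1 x.2)
  have h1 : ∀ z, (tag A N).val i ((bm _ (sl_one N).sl).f i (ψ z)) =
      (N.gr i).subtype.lTensor A z := fun z => by
    induction z using TensorProduct.induction_on with
    | zero => simp
    | tmul b x => exact congrArg (· ⊗ₜ[ℂ] x.1) (mul_one b)
    | add x y hx hy => simp only [map_add, hx, hy]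
  have h2 : ∀ w, ∃ z, ψ z = w := fun w => Br.el_ind (algebraMap ℂ A)
    (motive := fun w => ∃ z, ψ z = w) ⟨0, map_zero ψ⟩
    (fun b x => ⟨b ⊗ₜ[ℂ] ⟨(cag N).val i x, (cag N).val_mem x⟩, rfl⟩)
    (fun x y ⟨a, ha⟩ ⟨b, hb⟩ => ⟨a + b, (map_add ψ a b).trans (congrArg₂ (· + ·) ha hb)⟩) w
  refine ⟨fun w w' e => ?_, fun y => ?_⟩
  · obtain ⟨z, rfl⟩ := h2 w
    obtain ⟨z', rfl⟩ := h2 w'
    exact congrArg ψ (Module.Flat.lTensor_preserves_injective_linearMap _
      (N.gr i).injective_subtype ((h1 z).symm.trans ((congrArg _ e).trans (h1 z'))))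
  · obtain ⟨z, hz⟩ := (tag A N).val_mem y
    exact ⟨ψ z, (tag A N).val_inj ((h1 z).trans hz)⟩

theorem ten_qis {N N' : GD} {u : GD.Hom N N'} (h : GD.Qis u) :
    GD.Qis (tenH (LinearMap.id : A →ₗ[ℂ] A) u) :=
  (db_ten N).qis (db_ten N') (u := u) (fun c x => map_smul u.f c x)
    (fun _ => map_sq (fun _ => rfl) fun _ => rfl) h fun _ => rfl

theorem db_tenH [Algebra.Smooth ℂ A] (g : A →ₐ[ℂ] B) {N N' : GD} {u : GD.Hom N N'}
    (h : GD.Qis u) : DB (g : A →+* B) (tag A N) (tag B N') (tenH g.toLinearMap u) := by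
  have hs : Sl (g : A →+* B) (tag A N) (tag B N') (tenH g.toLinearMap u) := fun a =>
    map_sq (fun b => map_mul g a b) fun _ => rfl
  refine (db_ten N).cancel hs ?_
  refine ((db_ten (A := B) N').congr (fun c => (g.commutes c).symm) fun _ => rfl).rev
    (hs.comp (sl_one N)) (u := u) (v := GD.Hom.id _) (fun c x => map_smul u.f c x)
    (fun _ _ => rfl) h (GD.Qis.id _) fun x => ?_
  exact congrArg (· ⊗ₜ[ℂ] u.f x) (map_one g)

/-- A map with an inverse on the homogeneous elements. -/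
theorem qis_inv {M N : GD} (u : GD.Hom M N) (v : GD.Hom N M)
    (h : ∀ m, ∀ x ∈ M.gr m, v.f (u.f x) = x) (h' : ∀ m, ∀ x ∈ N.gr m, u.f (v.f x) = x) :
    GD.Qis u :=
  GD.Qis.of_htpy u v 0 (fun _ _ _ => zero_mem _) (fun m x hx => by simp [h m x hx]) 0
    (fun _ _ _ => zero_mem _) fun m x hx => by simp [h' m x hx]

/-- The inverse of the map `x ↦ 1 ⊗ x`. -/
def lid (N : GD) : GD.Hom (ten ℂ N) N :=
  ⟨(TensorProduct.lid ℂ N.V).toLinearMap, fun z => by
    induction z using TensorProduct.induction_on with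
    | zero => simp
    | tmul a x => exact (map_smul N.d a x).symm
    | add x y hx hy => simp only [map_add, hx, hy],
    fun _ _ h => ten_le _ (fun c _ hx => Submodule.smul_mem _ c hx) h⟩

theorem lid_one (N : GD) (x : N.V) : (lid N).f ((one ℂ N).f x) = x := one_smul ℂ x

theorem one_lid (N : GD) (z : (ten ℂ N).V) : (one ℂ N).f ((lid N).f z) = z :=
  (TensorProduct.lid ℂ N.V).symm_apply_apply z

theorem one_qis (N : GD) : GD.Qis (one ℂ N) :=
  qis_inv _ (lid N) (fun _ x _ => lid_one N x) fun _ z _ => one_lid N z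

/-- The fixed points of an endomorphism. -/
abbrev cut {M : GD} (e : GD.Hom M M) : GD where
  V := M.V
  d := M.d
  dd := M.dd
  gr m := M.gr m ⊓ LinearMap.eqLocus e.f LinearMap.id
  dgr m x h := ⟨M.dgr m x h.1, (e.comm x).trans (congrArg M.d h.2)⟩

theorem cut_qis {M N : GD} {e : GD.Hom M M} {e' : GD.Hom N N} (he : ∀ x, e.f (e.f x) = e.f x)
    (he' : ∀ x, e'.f (e'.f x) = e'.f x) {u : GD.Hom M N} (c : ∀ x, e'.f (u.f x) = u.f (e.f x))
    (h : GD.Qis u) (v : GD.Hom (cut e) (cut e')) (hv : ∀ x, v.f x = u.f x) : GD.Qis v := by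
  intro m
  refine ⟨?_, fun y hy hd => ?_⟩
  · rintro x hx hd ⟨y, hy, ey⟩
    obtain ⟨x', hx', ex⟩ := (h m).1 x hx.1 hd ⟨y, hy.1, ey.trans (hv x)⟩
    exact ⟨e.f x', ⟨e.deg _ _ hx', he x'⟩, (e.comm x').symm.trans ((congrArg e.f ex).trans hx.2)⟩
  · obtain ⟨x, hx, hd', y', hy', ey⟩ := (h m).2 y hy.1 hd
    refine ⟨e.f x, ⟨e.deg _ _ hx, he x⟩, (e.comm x).symm.trans ((congrArg e.f hd').trans
      (map_zero _)), e'.f y', ⟨e'.deg _ _ hy', he' y'⟩, (e'.comm y').symm.trans ?_⟩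
    rw [ey, map_sub, c, hv]
    exact congrArg (· - _) hy.2

theorem pi_qis {ι : Type} {M N : ι → GD} {t : ∀ l, GD.Hom (M l) (N l)} (h : ∀ l, GD.Qis (t l))
    (v : GD.Hom (gpi M) (gpi N)) (hv : ∀ x l, v.f x l = (t l).f (x l)) : GD.Qis v := by
  intro m
  refine ⟨?_, fun y hy hd => ?_⟩
  · rintro x hx hd ⟨y, hy, ey⟩
    choose x' hx' ex using fun l => (h l m).1 (x l) (hx l trivial) (congrFun hd l)
      ⟨y l, hy l trivial, (congrFun ey l).trans (hv x l)⟩
    exact ⟨x', fun l _ => hx' l, funext ex⟩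
  · choose x hx hd' y' hy' ey using fun l => (h l m).2 (y l) (hy l trivial) (congrFun hd l)
    exact ⟨x, fun l _ => hx l, funext hd', y', fun l _ => hy' l,
      funext fun l => (ey l).trans (congrArg (y l - ·) (hv x l).symm)⟩

end

end Vale.Agent.P286EJB
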